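import Vale.Agent.H26.P015.Main

namespace Vale.Agent.H26.P015

open Finset

theorem finite_box (A B : ℕ) (w : ℕ → GaussianInt) (hinj : Function.Injective w)
    (h1 : ∀ n, |(w n).re| ≤ A) (h2 : ∀ n, |(w n).im| ≤ B) : False := by
  have hfin : Set.Finite ((fun q : ℤ × ℤ => (⟨q.1, q.2⟩ : GaussianInt)) ''
      (↑(Icc (-(A:ℤ)) A ×ˢ Icc (-(B:ℤ)) B) : Set (ℤ × ℤ))) :=
    (Finset.finite_toSet _).image _
  have hinf := Set.infinite_of_injective_forall_mem (f := w) hinj
    (s := ((fun q : ℤ × ℤ => (⟨q.1, q.2⟩ : GaussianInt)) ''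
      (↑(Icc (-(A:ℤ)) A ×ˢ Icc (-(B:ℤ)) B) : Set (ℤ × ℤ)))) (by
      intro n
      refine ⟨((w n).re, (w n).im), ?_, rfl⟩
      simp only [coe_product, Set.mem_prod, mem_coe, mem_Icc]
      exact ⟨abs_le.mp (h1 n), abs_le.mp (h2 n)⟩)
  exact hinf hfin

theorem final (hB : RowB) (D : ℝ) : ∃ c : ℝ, 0 < c ∧ ∀ v : ℕ → GaussianInt,
    Function.Injective v → (∀ n, Prime (v n)) →
    (∀ n, ‖GaussianInt.toComplex (v (n+1)) - GaussianInt.toComplex (v n)‖ ≤ D) →
    ∀ N, ∃ n, N ≤ n ∧ Real.exp ((Real.log |((v n).re : ℝ)|)^c) < |((v n).im : ℝ)| := by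
  set d : ℕ := ⌈D⌉₊ + 1 with hd
  obtain ⟨c, hc, hslab⟩ := slab hB d (by omega)
  refine ⟨c, hc, ?_⟩
  intro v hinj hprime hstep N
  by_contra hcon
  push Not at hcon
  set w : ℕ → GaussianInt := fun n => v (N + n) with hw
  have hwinj : Function.Injective w := by
    intro i j hij
    have := hinj hij
    omega
  have hDd : D ≤ d := by
    rw [hd]; push_cast; have := Nat.le_ceil D; linarith
  have hre : ∀ n, |(w (n+1)).re - (w n).re| ≤ d := by
    intro n
    have h := (Complex.abs_re_le_norm _).trans (hstep (N+n))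
    have e : (GaussianInt.toComplex (v (N+n+1)) - GaussianInt.toComplex (v (N+n))).re
        = (((v (N+n+1)).re - (v (N+n)).re : ℤ):ℝ) := by
      simp
    rw [e, ← Int.cast_abs] at h
    have h2 := h.trans hDd
    exact_mod_cast h2
  have him : ∀ n, |(w (n+1)).im - (w n).im| ≤ d := by
    intro n
    have h := (Complex.abs_im_le_norm _).trans (hstep (N+n))
    have e : (GaussianInt.toComplex (v (N+n+1)) - GaussianInt.toComplex (v (N+n))).im
        = (((v (N+n+1)).im - (v (N+n)).im : ℤ):ℝ) := by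
      simp
    rw [e, ← Int.cast_abs] at h
    have h2 := h.trans hDd
    exact_mod_cast h2
  obtain ⟨a, k, hRa, hk, hreg, hmain⟩ := hslab (w 0).re.natAbs
  have hreg' : ∀ n, |(w n).re| ≤ a + k*d → |((w n).im : ℝ)| ≤ Real.exp k := by
    intro n hn
    exact (hcon (N+n) (by omega)).trans (hreg _ hn)
  -- unbounded
  have hunb : ∃ n, (a:ℤ) + k*d < |(w n).re| := by
    by_contra hno
    push Not at hno
    apply finite_box (a + k*d) ⌊Real.exp k⌋₊ w hwinj
    · intro n; exact_mod_cast hno n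
    · intro n
      have h := hreg' n (hno n)
      have h3 : (((w n).im.natAbs : ℕ):ℝ) ≤ Real.exp k := by
        rw [Nat.cast_natAbs, Int.cast_abs]; exact h
      have h4 : (w n).im.natAbs ≤ ⌊Real.exp k⌋₊ := Nat.le_floor h3
      rw [Int.abs_eq_natAbs]
      exact_mod_cast h4
  obtain ⟨n1, hn1⟩ := hunb
  obtain ⟨s, hs, hsn⟩ : ∃ s : ℤ, (s = 1 ∨ s = -1) ∧ s * (w n1).re = |(w n1).re| := by
    rcases le_total 0 (w n1).re with h | h
    · exact ⟨1, Or.inl rfl, by rw [abs_of_nonneg h]; ring⟩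
    · exact ⟨-1, Or.inr rfl, by rw [abs_of_nonpos h]; ring⟩
  have habs : ∀ x : ℤ, |s * x| = |x| := by
    intro x; rcases hs with rfl | rfl <;> simp
  have hs2 : s^2 = 1 := by rcases hs with rfl | rfl <;> norm_num
  obtain ⟨s0, -, hs0⟩ := rowE d k (fun n => s * (w n).re) (by
      intro n
      have : s * (w (n+1)).re - s * (w n).re = s * ((w (n+1)).re - (w n).re) := by ring
      rw [this, habs]; exact hre n) a 0 n1 (Nat.zero_le _) (by
      have h1 : s * (w 0).re ≤ |(w 0).re| := by rw [← habs]; exact le_abs_self _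
      have h2 : |(w 0).re| ≤ a := by
        rw [Int.abs_eq_natAbs]; exact_mod_cast hRa
      linarith) (by
      rw [hsn]; exact hn1)
  obtain ⟨i, hi, p, pp, p4, hdvd, hlt⟩ := hmain (fun i => (s * (w (s0+i)).re - a, (w (s0+i)).im))
    (by
      intro i
      simp only
      have e : s * (w (s0 + (i+1))).re - (a:ℤ) - (s * (w (s0+i)).re - a)
          = s * ((w (s0+i+1)).re - (w (s0+i)).re) := by
        rw [add_assoc]; ring
      rw [e, habs]; exact hre _)
    (by
      intro i
      exact him (s0+i))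
    (by
      intro i hi
      obtain ⟨h1, h2⟩ := hs0 i hi
      simp only
      constructor
      · omega
      · linarith)
    (by
      intro i hi
      obtain ⟨h1, h2⟩ := hs0 i hi
      simp only
      apply hreg'
      rw [← habs, abs_of_nonneg (by
        have : (0:ℤ) ≤ a := by positivity
        linarith)]
      exact h2)
    (by
      intro i j hij
      simp only [Prod.mk.injEq] at hij
      obtain ⟨h1, h2⟩ := hij
      have h3 : s * (w (s0+i)).re = s * (w (s0+j)).re := by linarith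
      have h4 : (w (s0+i)).re = (w (s0+j)).re := by
        rcases hs with rfl | rfl <;> linarith
      have h5 : w (s0+i) = w (s0+j) := Zsqrtd.ext h4 h2
      have := hwinj h5
      omega)
  simp only at hdvd hlt
  have hnorm : (w (s0+i)).norm = ((a:ℤ) + (s * (w (s0+i)).re - a))^2 + (w (s0+i)).im^2 := by
    rw [Zsqrtd.norm_def]
    have : ((a:ℤ) + (s * (w (s0+i)).re - a))^2 = s^2 * (w (s0+i)).re^2 := by ring
    rw [this, hs2]; ring
  rw [← hnorm] at hdvd hlt
  have := Vale.Agent.H5.P015.rowD (w (s0+i)) (hprime _) p pp p4 hdvd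
  omega

end Vale.Agent.H26.P015
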