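import Vale.Agent.H26.P015.Main2
import Vale.Agent.H26.P015.Final

namespace Vale.Agent.H26.P015

open Finset

theorem final2 (hB : RowB) (D : ℝ) (u : GaussianInt) (hu : u ≠ 0) : ∃ c : ℝ, 0 < c ∧
    ∀ z₀ : GaussianInt, ∀ v : ℕ → GaussianInt,
    Function.Injective v → (∀ n, Prime (v n)) →
    (∀ n, ‖GaussianInt.toComplex (v (n+1)) - GaussianInt.toComplex (v n)‖ ≤ D) →
    ∀ N, ∃ n, N ≤ n ∧ Real.exp ((Real.log |(((v n - z₀) * u).re : ℝ)|)^c)
      < |(((v n - z₀) * u).im : ℝ)| := by
  set d : ℕ := ⌈D * ‖GaussianInt.toComplex u‖⌉₊ + 1 with hd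
  obtain ⟨c, hc, hslab⟩ := slab2 hB d (by omega)
  refine ⟨c, hc, ?_⟩
  intro z₀ v hinj hprime hstep N
  by_contra hcon
  push Not at hcon
  set q : GaussianInt := z₀ * u with hq
  set g : ℕ → GaussianInt := fun n => v (N + n) * u with hg
  have hginj : Function.Injective g := by
    intro i j hij
    have h1 := mul_right_cancel₀ hu hij
    have := hinj h1
    omega
  have hDd : D * ‖GaussianInt.toComplex u‖ ≤ d := by
    rw [hd]; push_cast; have := Nat.le_ceil (D * ‖GaussianInt.toComplex u‖); linarith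
  have hstep' : ∀ n, ‖GaussianInt.toComplex (g (n+1) - g n)‖ ≤ d := by
    intro n
    refine le_trans ?_ hDd
    have e : g (n+1) - g n = (v (N+n+1) - v (N+n)) * u := by
      rw [hg]; simp only [← add_assoc]; ring
    rw [e, map_mul, norm_mul, map_sub]
    exact mul_le_mul_of_nonneg_right (hstep (N+n)) (norm_nonneg _)
  have hre : ∀ n, |(g (n+1)).re - (g n).re| ≤ d := by
    intro n
    have h := (Complex.abs_re_le_norm _).trans (hstep' n)
    have e : (GaussianInt.toComplex (g (n+1) - g n)).re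
        = (((g (n+1)).re - (g n).re : ℤ):ℝ) := by
      simp
    rw [e, ← Int.cast_abs] at h
    exact_mod_cast h
  have him : ∀ n, |(g (n+1)).im - (g n).im| ≤ d := by
    intro n
    have h := (Complex.abs_im_le_norm _).trans (hstep' n)
    have e : (GaussianInt.toComplex (g (n+1) - g n)).im
        = (((g (n+1)).im - (g n).im : ℤ):ℝ) := by
      simp
    rw [e, ← Int.cast_abs] at h
    exact_mod_cast h
  have hupos : 0 < u.norm := GaussianInt.norm_pos.mpr hu
  obtain ⟨a, k, hRa, hk, hreg, hmain⟩ := hslab ((g 0).re.natAbs + q.re.natAbs + q.im.natAbs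
    + u.norm.natAbs)
  set R := ((g 0).re.natAbs + q.re.natAbs + q.im.natAbs + u.norm.natAbs) with hR
  have hsub : ∀ n, (v (N+n) - z₀) * u = g n - q := by
    intro n; rw [hg, hq]; simp only; ring
  have hreg' : ∀ n, |(g n).re| ≤ a + k*d → |((g n).im : ℝ)| ≤ Real.exp k := by
    intro n hn
    have h1 := hcon (N+n) (by omega)
    rw [hsub n] at h1
    have h2 : |(g n - q).re| ≤ a + k*d + R := by
      rw [Zsqrtd.re_sub]
      have h3 : |(g n).re - q.re| ≤ |(g n).re| + |q.re| := abs_sub _ _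
      have h4 : |q.re| ≤ R := by
        rw [Int.abs_eq_natAbs]; exact_mod_cast (by omega : q.re.natAbs ≤ R)
      linarith
    have h5 := hreg _ h2
    rw [Zsqrtd.im_sub] at h1
    have h6 : (|((q.im:ℤ):ℝ)|) ≤ R := by
      have : |q.im| ≤ (R:ℤ) := by
        rw [Int.abs_eq_natAbs]; exact_mod_cast (by omega : q.im.natAbs ≤ R)
      have h7 : ((|q.im| : ℤ):ℝ) ≤ ((R:ℤ):ℝ) := by exact_mod_cast this
      rw [Int.cast_abs] at h7
      simpa using h7
    have h8 : |((g n).im:ℝ)| ≤ |(((g n).im - q.im : ℤ):ℝ)| + |((q.im:ℤ):ℝ)| := by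
      have : ((g n).im:ℝ) = (((g n).im - q.im : ℤ):ℝ) + ((q.im:ℤ):ℝ) := by push_cast; ring
      calc |((g n).im:ℝ)| = |(((g n).im - q.im : ℤ):ℝ) + ((q.im:ℤ):ℝ)| := by rw [← this]
        _ ≤ _ := abs_add_le _ _
    linarith
  -- unbounded
  have hunb : ∃ n, (a:ℤ) + k*d < |(g n).re| := by
    by_contra hno
    push Not at hno
    apply finite_box (a + k*d) ⌊Real.exp k⌋₊ g hginj
    · intro n; exact_mod_cast hno n
    · intro n
      have h := hreg' n (hno n)
      have h3 : (((g n).im.natAbs : ℕ):ℝ) ≤ Real.exp k := by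
        rw [Nat.cast_natAbs, Int.cast_abs]; exact h
      have h4 : (g n).im.natAbs ≤ ⌊Real.exp k⌋₊ := Nat.le_floor h3
      rw [Int.abs_eq_natAbs]
      exact_mod_cast h4
  obtain ⟨n1, hn1⟩ := hunb
  obtain ⟨s, hs, hsn⟩ : ∃ s : ℤ, (s = 1 ∨ s = -1) ∧ s * (g n1).re = |(g n1).re| := by
    rcases le_total 0 (g n1).re with h | h
    · exact ⟨1, Or.inl rfl, by rw [abs_of_nonneg h]; ring⟩
    · exact ⟨-1, Or.inr rfl, by rw [abs_of_nonpos h]; ring⟩
  have habs : ∀ x : ℤ, |s * x| = |x| := by
    intro x; rcases hs with rfl | rfl <;> simp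
  have hs2 : s^2 = 1 := by rcases hs with rfl | rfl <;> norm_num
  obtain ⟨s0, -, hs0⟩ := rowE d k (fun n => s * (g n).re) (by
      intro n
      have : s * (g (n+1)).re - s * (g n).re = s * ((g (n+1)).re - (g n).re) := by ring
      rw [this, habs]; exact hre n) a 0 n1 (Nat.zero_le _) (by
      have h1 : s * (g 0).re ≤ |(g 0).re| := by rw [← habs]; exact le_abs_self _
      have h2 : |(g 0).re| ≤ a := by
        rw [Int.abs_eq_natAbs]; exact_mod_cast (by omega : (g 0).re.natAbs ≤ a)
      linarith) (by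
      rw [hsn]; exact hn1)
  obtain ⟨i, hi, p, hRp, hpa, pp, p4, hdvd⟩ := hmain (fun i => (s * (g (s0+i)).re - a, (g (s0+i)).im))
    (by
      intro i
      simp only
      have e : s * (g (s0 + (i+1))).re - (a:ℤ) - (s * (g (s0+i)).re - a)
          = s * ((g (s0+i+1)).re - (g (s0+i)).re) := by
        rw [add_assoc]; ring
      rw [e, habs]; exact hre _)
    (by
      intro i
      exact him (s0+i))
    (by
      intro i hi
      obtain ⟨h1, h2⟩ := hs0 i hi
      simp only
      constructor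
      · omega
      · linarith)
    (by
      intro i hi
      obtain ⟨h1, h2⟩ := hs0 i hi
      simp only
      apply hreg'
      rw [← habs, abs_of_nonneg (by
        have : (0:ℤ) ≤ a := by positivity
        linarith)]
      exact h2)
    (by
      intro i j hij
      simp only [Prod.mk.injEq] at hij
      obtain ⟨h1, h2⟩ := hij
      have h3 : s * (g (s0+i)).re = s * (g (s0+j)).re := by linarith
      have h4 : (g (s0+i)).re = (g (s0+j)).re := by
        rcases hs with rfl | rfl <;> linarith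
      have h5 : g (s0+i) = g (s0+j) := Zsqrtd.ext h4 h2
      have := hginj h5
      omega)
  simp only at hdvd
  have hnorm : (g (s0+i)).norm = ((a:ℤ) + (s * (g (s0+i)).re - a))^2 + (g (s0+i)).im^2 := by
    rw [Zsqrtd.norm_def]
    have : ((a:ℤ) + (s * (g (s0+i)).re - a))^2 = s^2 * (g (s0+i)).re^2 := by ring
    rw [this, hs2]; ring
  have hnorm2 : (g (s0+i)).norm = (v (N+(s0+i))).norm * u.norm := by
    rw [hg]; exact Zsqrtd.norm_mul _ _
  rw [← hnorm, hnorm2] at hdvd
  have hpZ : Prime (p:ℤ) := Nat.prime_iff_prime_int.mp pp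
  have hulR : u.norm ≤ R := by
    have : u.norm = u.norm.natAbs := by omega
    rw [this]; exact_mod_cast (by omega : u.norm.natAbs ≤ R)
  have hdvd2 : (p:ℤ) ∣ (v (N+(s0+i))).norm := by
    rcases hpZ.dvd_or_dvd hdvd with h | h
    · exact h
    · exfalso
      have h1 := Int.le_of_dvd hupos h
      have h2 : (R:ℤ) < p := by exact_mod_cast hRp
      linarith
  have hvp := Vale.Agent.H5.P015.rowD (v (N+(s0+i))) (hprime _) p pp p4 hdvd2
  have h0 := (hs0 i hi).1
  have h1 : (a:ℤ)^2 < (g (s0+i)).norm := by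
    rw [hnorm]
    have : (a:ℤ) < (a:ℤ) + (s * (g (s0+i)).re - a) := by
      linarith
    have ha0 : (0:ℤ) ≤ a := by positivity
    nlinarith [sq_nonneg (g (s0+i)).im]
  rw [hnorm2, hvp] at h1
  have h2 : (p:ℤ) ≤ a := by exact_mod_cast hpa
  have h3 : (R:ℤ) ≤ a := by exact_mod_cast hRa
  have h4 : (0:ℤ) ≤ p := by positivity
  have h5 : (p:ℤ) * u.norm ≤ a * a := by
    apply mul_le_mul h2 (by linarith) hupos.le (by positivity)
  nlinarith

end Vale.Agent.H26.P015
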