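import Vale.Agent.H26.P015.Slab
import Vale.Agent.H5.P015.D

namespace Vale.Agent.H26.P015

open Finset

/-- Row B as a hypothesis (discharged in the result file) -/
def RowB : Prop := ∀ B : ℝ, ∃ M : ℕ, 2 ≤ M ∧ ∀ j0 : ℕ, ∃ j, j0 ≤ j ∧
    B ≤ ∑ p ∈ (Finset.Ioc (2^(M^j) : ℕ) (2^(M^(j+1)) : ℕ)).filter
      (fun p => p.Prime ∧ p % 4 = 1), (1:ℝ)/p

theorem prod_le_exp (P : Finset ℕ) (k : ℕ) (hP : ∀ p ∈ P, k ≤ p) :
    ∏ p ∈ P, (1 - (k:ℝ)/p) ≤ Real.exp (-(k * ∑ p ∈ P, (1:ℝ)/p)) := by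
  rw [mul_sum, ← sum_neg_distrib, Real.exp_sum]
  apply prod_le_prod
  · intro p hp
    have h := hP p hp
    rcases Nat.eq_zero_or_pos p with h0 | h0
    · subst h0; simp
    · have : (k:ℝ)/p ≤ 1 := by
        rw [div_le_one (by exact_mod_cast h0)]
        exact_mod_cast h
      linarith
  · intro p hp
    have := Real.add_one_le_exp (-(k * ((1:ℝ)/p)))
    have e : (k:ℝ)/p = k * (1/p) := by ring
    rw [e]
    linarith

theorem prod_bound (Z : ℕ) (P : Finset ℕ) (hP : ∀ p ∈ P, p.Prime ∧ p ≤ Z) :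
    ∏ p ∈ P, p ≤ 4^Z := by
  refine le_trans ?_ (primorial_le_four_pow Z)
  unfold primorial
  apply prod_le_prod_of_subset_of_one_le'
  · intro p hp
    simp only [mem_filter, mem_range]
    exact ⟨by have := (hP p hp).2; omega, (hP p hp).1⟩
  · intro p hp _
    simp only [mem_filter, mem_range] at hp
    exact hp.2.one_le

theorem card_real (k d h : ℕ) (hk : 1 ≤ k) (hd : d ≤ k) (hh : (h:ℝ) ≤ Real.exp k) :
    ((FF k d h).card : ℝ) ≤ Real.exp (5 * k + 2 * k * Real.log (2*d+1)) := by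
  have h1 : ((FF k d h).card : ℝ) ≤ (k*d) * (2*h+1) * ((2*d+1)^2)^k := by
    exact_mod_cast card_FF k d h
  refine h1.trans ?_
  have hk' : (1:ℝ) ≤ k := by exact_mod_cast hk
  have e1 : (k:ℝ) ≤ Real.exp k := by have := Real.add_one_le_exp (k:ℝ); linarith
  have e2 : (d:ℝ) ≤ Real.exp k := le_trans (by exact_mod_cast hd) e1
  have e3 : (2*h+1:ℝ) ≤ Real.exp (3*k) := by
    have a1 : (1:ℝ) ≤ Real.exp k := Real.one_le_exp (by linarith)
    have a2 : (2*h+1:ℝ) ≤ 3 * Real.exp k := by linarith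
    have a3 : (3:ℝ) ≤ Real.exp (2*k) := by have := Real.add_one_le_exp (2*(k:ℝ)); linarith
    calc (2*h+1:ℝ) ≤ 3 * Real.exp k := a2
      _ ≤ Real.exp (2*k) * Real.exp k := by
          apply mul_le_mul_of_nonneg_right a3 (Real.exp_pos _).le
      _ = Real.exp (3*k) := by rw [← Real.exp_add]; congr 1; ring
  have e4 : (((2*d+1:ℝ))^2)^k = Real.exp (2 * k * Real.log (2*d+1)) := by
    have hpos : (0:ℝ) < 2*d+1 := by positivity
    rw [← pow_mul]
    have : 2 * (k:ℝ) * Real.log (2*d+1) = ((2*k : ℕ):ℝ) * Real.log (2*d+1) := by push_cast; ring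
    rw [this, Real.exp_nat_mul, Real.exp_log hpos]
  rw [e4]
  have e5 : Real.exp (5 * k + 2 * k * Real.log (2*d+1))
      = (Real.exp k * Real.exp k) * Real.exp (3*k) * Real.exp (2 * k * Real.log (2*d+1)) := by
    rw [← Real.exp_add, ← Real.exp_add, ← Real.exp_add]; congr 1; ring
  rw [e5]
  apply mul_le_mul_of_nonneg_right _ (Real.exp_pos _).le
  apply mul_le_mul _ e3 (by positivity) (by positivity)
  exact mul_le_mul e1 e2 (by positivity) (by positivity)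

theorem log_bound (Z k d Q a : ℕ) (hZ : 3 ≤ Z) (hQ : Q ≤ 4^Z) (ha : a < 2*Q) (hkd : k*d ≤ Z) :
    Real.log ((a + k*d : ℕ)) ≤ 2 * Z := by
  have h1 : a + k*d ≤ 4^(Z+1) := by
    have : Z < 4^Z := Nat.lt_pow_self (by norm_num)
    rw [pow_succ]; omega
  rcases Nat.eq_zero_or_pos (a + k*d) with h0 | h0
  · rw [h0]; simp
  have h2 : Real.log ((a + k*d : ℕ)) ≤ Real.log ((4:ℝ)^(Z+1)) := by
    apply Real.log_le_log (by exact_mod_cast h0)
    exact_mod_cast h1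
  refine h2.trans ?_
  rw [Real.log_pow]
  have h4 : Real.log 4 ≤ 1.4 := by
    have : (4:ℝ) = 2^2 := by norm_num
    rw [this, Real.log_pow]
    have := Real.log_two_lt_d9
    push_cast
    linarith
  have hZ' : (3:ℝ) ≤ Z := by exact_mod_cast hZ
  push_cast
  nlinarith

/-- the exponent bound: `(2Z)^c ≤ k` -/
theorem exponent_bound (m M : ℕ) (hM : 2 ≤ M) (hm : 8 ≤ m) :
    (2 * ((2^(m*M) : ℕ):ℝ)) ^ (1/(8*(M:ℝ))) ≤ ((2^(m/4) : ℕ) : ℝ) := by
  have hM' : (2:ℝ) ≤ M := by exact_mod_cast hM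
  have e1 : (2 * ((2^(m*M) : ℕ):ℝ)) = (2:ℝ)^((m*M+1 : ℕ):ℝ) := by
    rw [Real.rpow_natCast]; push_cast; rw [pow_succ]; ring
  have e2 : (((2^(m/4) : ℕ)) : ℝ) = (2:ℝ)^(((m/4 : ℕ)):ℝ) := by
    rw [Real.rpow_natCast]; push_cast; rfl
  rw [e1, e2, ← Real.rpow_mul (by norm_num)]
  apply Real.rpow_le_rpow_of_exponent_le (by norm_num)
  push_cast
  have e3 : ((m:ℝ) * M + 1) * (1 / (8*M)) = m/8 + 1/(8*M) := by
    field_simp
  rw [e3]
  have e4 : 1/(8*(M:ℝ)) ≤ 1/16 := by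
    apply one_div_le_one_div_of_le (by norm_num); linarith
  have e5 : (m:ℝ) ≤ 4 * ((m/4:ℕ):ℝ) + 3 := by
    have : m ≤ 4 * (m/4) + 3 := by omega
    exact_mod_cast this
  have e6 : (8:ℝ) ≤ m := by exact_mod_cast hm
  linarith

theorem slab (hB : RowB) (d : ℕ) (hd : 1 ≤ d) : ∃ c : ℝ, 0 < c ∧ ∀ R : ℕ, ∃ a k : ℕ, R ≤ a ∧ 0 < k ∧
    (∀ t : ℤ, |t| ≤ a + k*d → Real.exp ((Real.log |(t:ℝ)|)^c) ≤ Real.exp k) ∧
    ∀ V : ℕ → ℤ × ℤ, (∀ i, |(V (i+1)).1 - (V i).1| ≤ d) → (∀ i, |(V (i+1)).2 - (V i).2| ≤ d) →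
        (∀ i < k, 1 ≤ (V i).1 ∧ (V i).1 ≤ k*d) → (∀ i < k, |((V i).2 : ℝ)| ≤ Real.exp k) →
        Function.Injective V →
        ∃ i < k, ∃ p : ℕ, p.Prime ∧ p % 4 = 1 ∧ (p:ℤ) ∣ (a + (V i).1)^2 + (V i).2^2 ∧
          (p:ℤ) < (a + (V i).1)^2 + (V i).2^2 := by
  obtain ⟨M, hM, hj⟩ := hB (6 + 2 * Real.log (2*d+1))
  have hMpos : (0:ℝ) < M := by exact_mod_cast (by omega : 0 < M)
  refine ⟨1/(8*(M:ℝ)), by positivity, ?_⟩
  intro R
  obtain ⟨j, hj0, hS⟩ := hj (R + 8 + 8 * d)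
  set m := M^j with hm
  have hmj : j < m := Nat.lt_pow_self (by omega)
  have hmbig : R + 8 + 8*d ≤ m := by omega
  set k := 2^(m/4) with hk
  have hkpos : 0 < k := by positivity
  set P := (Finset.Ioc (2^(M^j) : ℕ) (2^(M^(j+1)) : ℕ)).filter
      (fun p => p.Prime ∧ p % 4 = 1) with hPdef
  set Z := 2^(m*M) with hZ
  have hZe : 2^(M^(j+1)) = Z := by rw [hZ, hm, pow_succ]
  have hdk : 2*d ≤ k := by
    have : m/4 < 2^(m/4) := Nat.lt_pow_self (by norm_num)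
    omega
  have hk4 : k^4 ≤ 2^m := by
    rw [hk, ← pow_mul]
    exact Nat.pow_le_pow_right (by norm_num) (by omega)
  have hkd2 : 2*(k*d)^2 ≤ k^4 := by
    have : 2*d*(2*d) ≤ k*k := Nat.mul_le_mul hdk hdk
    have h2 : k^2 * (2*d*(2*d)) ≤ k^2 * (k*k) := Nat.mul_le_mul_left _ this
    nlinarith
  have hkk4 : k ≤ k^4 := Nat.le_self_pow (by norm_num) k
  have hPmem : ∀ p ∈ P, 2^m < p ∧ p ≤ Z ∧ p.Prime ∧ p % 4 = 1 := by
    intro p hp
    rw [hPdef, mem_filter, mem_Ioc, hZe] at hp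
    exact ⟨hp.1.1, hp.1.2, hp.2.1, hp.2.2⟩
  have hPk : ∀ p ∈ P, p.Prime ∧ p % 4 = 1 ∧ k ≤ p ∧ 2 * (k*d)^2 < p := by
    intro p hp
    obtain ⟨h1, h2, h3, h4⟩ := hPmem p hp
    exact ⟨h3, h4, by omega, by omega⟩
  set h := ⌊Real.exp k⌋₊ with hh
  have hhle : (h:ℝ) ≤ Real.exp k := Nat.floor_le (Real.exp_pos _).le
  have hlt : ((FF k d h).card : ℝ) * ∏ p ∈ P, (1 - (k:ℝ)/p) < 1 := by
    have h1 := card_real k d h hkpos (by omega) hhle
    have h2 := prod_le_exp P k (fun p hp => (hPk p hp).2.2.1)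
    have hk1 : (1:ℝ) ≤ k := by exact_mod_cast hkpos
    have h3 : Real.exp (-(k * ∑ p ∈ P, (1:ℝ)/p)) ≤ Real.exp (-(k * (6 + 2 * Real.log (2*d+1)))) := by
      apply Real.exp_le_exp.mpr
      have := mul_le_mul_of_nonneg_left hS (by linarith : (0:ℝ) ≤ k)
      linarith
    calc ((FF k d h).card : ℝ) * ∏ p ∈ P, (1 - (k:ℝ)/p)
        ≤ ((FF k d h).card : ℝ) * Real.exp (-(k * (6 + 2 * Real.log (2*d+1)))) :=
          mul_le_mul_of_nonneg_left (h2.trans h3) (by positivity)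
      _ ≤ Real.exp (5 * k + 2 * k * Real.log (2*d+1)) * Real.exp (-(k * (6 + 2 * Real.log (2*d+1)))) :=
          mul_le_mul_of_nonneg_right h1 (Real.exp_pos _).le
      _ = Real.exp (-k) := by rw [← Real.exp_add]; congr 1; ring
      _ < 1 := by rw [Real.exp_lt_one_iff]; linarith
  obtain ⟨a, ha1, ha2, hmain⟩ := slab_core d k h hkpos P hPk hlt
  have hZ3 : 3 ≤ Z := by
    have : m*M < 2^(m*M) := Nat.lt_pow_self (by norm_num)
    have : m ≤ m*M := Nat.le_mul_of_pos_right m (by omega)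
    omega
  have hkdZ : k*d ≤ Z := by
    have h1 : k*d ≤ k^4 := by
      have : k*d ≤ k*k := Nat.mul_le_mul_left _ (by omega)
      have h2 : k*k ≤ k^4 := by
        have : k^2 ≤ k^4 := Nat.pow_le_pow_right hkpos (by norm_num)
        nlinarith
      omega
    have h2 : 2^m ≤ Z := by
      rw [hZ]; exact Nat.pow_le_pow_right (by norm_num) (Nat.le_mul_of_pos_right m (by omega))
    omega
  have hQ := prod_bound Z P (fun p hp => ⟨(hPmem p hp).2.2.1, (hPmem p hp).2.1⟩)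
  have hlog := log_bound Z k d _ a hZ3 hQ ha2 hkdZ
  have hexp := exponent_bound m M hM (by omega)
  refine ⟨a, k, ?_, hkpos, ?_, ?_⟩
  · -- R ≤ a
    have hne : P.Nonempty := by
      by_contra hc
      rw [not_nonempty_iff_eq_empty] at hc
      rw [hc] at hS
      have : 0 ≤ Real.log (2*d+1) := Real.log_nonneg (by
        have : (0:ℝ) ≤ d := by positivity
        linarith)
      simp at hS
      linarith
    obtain ⟨p, hp⟩ := hne
    have h1 := (hPmem p hp).1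
    have h2 : p ≤ ∏ p ∈ P, p := Nat.le_of_dvd (prod_pos (fun p hp => (hPmem p hp).2.2.1.pos))
      (dvd_prod_of_mem (fun p => p) hp)
    have h3 : m < 2^m := Nat.lt_pow_self (by norm_num)
    omega
  · intro t ht
    apply Real.exp_le_exp.mpr
    have hc : (0:ℝ) ≤ 1/(8*(M:ℝ)) := by positivity
    have ht' : |(t:ℝ)| ≤ ((a + k*d : ℕ):ℝ) := by
      have : ((|t| : ℤ):ℝ) ≤ ((a + k*d : ℤ):ℝ) := by exact_mod_cast ht
      rw [Int.cast_abs] at this
      push_cast at this ⊢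
      exact this
    have hlog2 : Real.log |(t:ℝ)| ≤ 2*Z := by
      rcases eq_or_ne t 0 with h0 | h0
      · subst h0; simp
      · refine le_trans (Real.log_le_log (by positivity) ht') hlog
    have hlog0 : 0 ≤ Real.log |(t:ℝ)| := by
      rcases eq_or_ne t 0 with h0 | h0
      · subst h0; simp
      · apply Real.log_nonneg
        have : 1 ≤ |t| := Int.one_le_abs h0
        have h2 : ((1:ℤ):ℝ) ≤ ((|t| : ℤ):ℝ) := by exact_mod_cast this
        rw [Int.cast_abs] at h2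
        simpa using h2
    refine (Real.rpow_le_rpow hlog0 hlog2 hc).trans ?_
    rw [hZ]
    exact hexp
  · intro V h1 h2 hb1 hb2 hinj
    refine hmain V h1 h2 hb1 ?_ hinj
    intro i hi
    have := hb2 i hi
    have h3 : (((V i).2.natAbs : ℕ):ℝ) ≤ Real.exp k := by
      rw [Nat.cast_natAbs, Int.cast_abs]; exact this
    have h4 : (V i).2.natAbs ≤ h := Nat.le_floor h3
    rw [Int.abs_eq_natAbs]
    exact_mod_cast h4

end Vale.Agent.H26.P015
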