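import Mathlib

namespace Vale.Agent.H26.P015

open Finset

/-- paths with `k` vertices encoded by a start and steps -/
noncomputable def F0 (k d h : ℕ) : Finset (Fin k → ℤ × ℤ) :=
  ((Icc (1:ℤ) (k*d) ×ˢ Icc (-(h:ℤ)) h) ×ˢ
    Fintype.piFinset (fun _ : Fin k => Icc (-(d:ℤ)) d ×ˢ Icc (-(d:ℤ)) d)).image
    (fun q => fun j : Fin k => q.1 + ∑ i : Fin k, if i < j then q.2 i else 0)

open Classical in
noncomputable def FF (k d h : ℕ) : Finset (Fin k → ℤ × ℤ) :=
  (F0 k d h).filter (fun v => Function.Injective v ∧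
    ∀ i j, |(v i).1 - (v j).1| ≤ k*d ∧ |(v i).2 - (v j).2| ≤ k*d)

theorem card_F0 (k d h : ℕ) : (F0 k d h).card ≤ (k*d) * (2*h+1) * ((2*d+1)^2)^k := by
  unfold F0
  refine card_image_le.trans ?_
  rw [card_product, card_product, Fintype.card_piFinset]
  simp only [card_product, Int.card_Icc, prod_const, card_univ, Fintype.card_fin]
  have e1 : ((k:ℤ) * d + 1 - 1).toNat = k * d := by
    have : ((k:ℤ) * d + 1 - 1) = ((k*d : ℕ) : ℤ) := by push_cast; ring
    rw [this, Int.toNat_natCast]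
  have e2 : ((h:ℤ) + 1 - -(h:ℤ)).toNat = 2*h+1 := by omega
  have e3 : ((d:ℤ) + 1 - -(d:ℤ)).toNat = 2*d+1 := by omega
  rw [e1, e2, e3, sq]

theorem card_FF (k d h : ℕ) : (FF k d h).card ≤ (k*d) * (2*h+1) * ((2*d+1)^2)^k :=
  (card_filter_le _ _).trans (card_F0 k d h)

theorem diff_bound (d : ℕ) (V : ℕ → ℤ) (hs : ∀ i, |V (i+1) - V i| ≤ d) (i n : ℕ) :
    |V (i+n) - V i| ≤ n * d := by
  induction n with
  | zero => simp
  | succ n ih =>
    have h1 := hs (i+n)
    have : V (i+(n+1)) - V i = (V (i+n+1) - V (i+n)) + (V (i+n) - V i) := by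
      rw [← add_assoc]; ring
    rw [this]
    refine (abs_add_le _ _).trans ?_
    push_cast
    linarith

theorem diff_bound' (d k : ℕ) (V : ℕ → ℤ) (hs : ∀ i, |V (i+1) - V i| ≤ d) (i j : ℕ)
    (hi : i < k) (hj : j < k) : |V i - V j| ≤ k * d := by
  rcases le_total i j with h | h
  · obtain ⟨n, rfl⟩ := Nat.exists_eq_add_of_le h
    rw [abs_sub_comm]
    refine (diff_bound d V hs i n).trans ?_
    have : (n:ℤ) ≤ k := by exact_mod_cast (by omega : n ≤ k)
    exact mul_le_mul_of_nonneg_right this (by positivity)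
  · obtain ⟨n, rfl⟩ := Nat.exists_eq_add_of_le h
    refine (diff_bound d V hs j n).trans ?_
    have : (n:ℤ) ≤ k := by exact_mod_cast (by omega : n ≤ k)
    exact mul_le_mul_of_nonneg_right this (by positivity)

theorem mem_FF (k d h : ℕ) (hk : 0 < k) (V : ℕ → ℤ × ℤ)
    (h1 : ∀ i, |(V (i+1)).1 - (V i).1| ≤ d) (h2 : ∀ i, |(V (i+1)).2 - (V i).2| ≤ d)
    (hb1 : ∀ i < k, 1 ≤ (V i).1 ∧ (V i).1 ≤ k*d) (hb2 : ∀ i < k, |(V i).2| ≤ h)
    (hinj : Function.Injective V) : (fun i : Fin k => V i) ∈ FF k d h := by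
  classical
  unfold FF
  rw [mem_filter]
  refine ⟨?_, ?_, ?_⟩
  · unfold F0
    rw [mem_image]
    refine ⟨(V 0, fun i : Fin k => V (i+1) - V i), ?_, ?_⟩
    · simp only [mem_product, mem_Icc, Fintype.mem_piFinset]
      refine ⟨⟨hb1 0 hk, abs_le.mp (hb2 0 hk)⟩, fun i => ⟨abs_le.mp (h1 i), abs_le.mp (h2 i)⟩⟩
    · funext j
      simp only
      have e : ∑ i : Fin k, (if i < j then V (↑i+1) - V ↑i else 0)
          = ∑ i ∈ range k, (if i < (j:ℕ) then V (i+1) - V i else 0) := by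
        rw [← Fin.sum_univ_eq_sum_range (fun i => if i < (j:ℕ) then V (i+1) - V i else 0) k]
        rfl
      rw [e, ← sum_filter]
      have e2 : (range k).filter (fun i => i < (j:ℕ)) = range j := by
        ext i; simp only [mem_filter, mem_range]; have := j.2; omega
      rw [e2, sum_range_sub]
      abel
  · intro i j hij
    have := hinj hij
    exact Fin.ext this
  · intro i j
    exact ⟨diff_bound' d k (fun i => (V i).1) h1 i j i.2 j.2,
      diff_bound' d k (fun i => (V i).2) h2 i j i.2 j.2⟩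

/-- residues are distinct -/
theorem FF_residues (k d h : ℕ) (v : Fin k → ℤ × ℤ) (hv : v ∈ FF k d h) (p : ℕ)
    (hp : p.Prime) (r : ℤ) (hr : (p:ℤ) ∣ r^2 + 1) (hlt : 2 * (k*d)^2 < p) :
    Function.Injective (fun j => (((v j).1 + r * (v j).2 : ℤ) : ZMod p)) := by
  classical
  unfold FF at hv
  rw [mem_filter] at hv
  obtain ⟨-, hinj, hb⟩ := hv
  intro i j hij
  simp only at hij
  rw [ZMod.intCast_eq_intCast_iff_dvd_sub] at hij
  obtain ⟨b1, b2⟩ := hb i j
  set x := (v i).1 - (v j).1 with hx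
  set y := (v i).2 - (v j).2 with hy
  have hd : (p:ℤ) ∣ x + r * y := by
    have h := (dvd_neg.mpr hij)
    have e : -((v j).1 + r * (v j).2 - ((v i).1 + r * (v i).2)) = x + r * y := by
      rw [hx, hy]; ring
    rwa [e] at h
  have hd2 : (p:ℤ) ∣ x^2 + y^2 := by
    have : x^2 + y^2 = (x + r*y) * (x - r*y) + (r^2+1) * y^2 := by ring
    rw [this]
    exact dvd_add (hd.mul_right _) (hr.mul_right _)
  have hlt2 : x^2 + y^2 < p := by
    have c1 : x^2 ≤ (k*d)^2 := by
      rw [← sq_abs x]; exact pow_le_pow_left₀ (abs_nonneg _) b1 2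
    have c2 : y^2 ≤ (k*d)^2 := by
      rw [← sq_abs y]; exact pow_le_pow_left₀ (abs_nonneg _) b2 2
    have c3 : (2 * (k*d)^2 : ℤ) < p := by exact_mod_cast hlt
    linarith
  have h0 : x^2 + y^2 = 0 := by
    exact Int.eq_zero_of_dvd_of_nonneg_of_lt (by positivity) hlt2 hd2
  have hx0 : x = 0 := by nlinarith [sq_nonneg x, sq_nonneg y]
  have hy0 : y = 0 := by nlinarith [sq_nonneg x, sq_nonneg y]
  apply hinj
  apply Prod.ext
  · linarith
  · linarith

/-- Row E. -/
theorem rowE (D k : ℕ) (u : ℕ → ℤ) (hstep : ∀ n, |u (n+1) - u n| ≤ D) (a : ℤ)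
    (n0 n1 : ℕ) (h01 : n0 ≤ n1) (h0 : u n0 ≤ a) (h1 : a + k*D < u n1) :
    ∃ s, n0 < s ∧ ∀ i < k, a < u (s+i) ∧ u (s+i) ≤ a + k*D := by
  classical
  have hkD : (0:ℤ) ≤ k * D := by positivity
  -- first n ≥ n0 with u n > a + kD
  have hex : ∃ n, n0 ≤ n ∧ a + k*D < u n := ⟨n1, h01, h1⟩
  set n2 := Nat.find hex with hn2
  obtain ⟨h2a, h2b⟩ := Nat.find_spec hex
  rw [← hn2] at h2a h2b
  have hmin : ∀ n, n0 ≤ n → n < n2 → u n ≤ a + k*D := by
    intro n ha hb
    by_contra hc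
    exact Nat.find_min hex hb ⟨ha, by push Not at hc; exact hc⟩
  -- s-1 = last n < n2 with u n ≤ a
  have hfin : ((range n2).filter (fun n => n0 ≤ n ∧ u n ≤ a)).Nonempty := by
    refine ⟨n0, ?_⟩
    simp only [mem_filter, mem_range]
    refine ⟨?_, le_refl _, h0⟩
    rcases Nat.lt_or_ge n0 n2 with h | h
    · exact h
    · have : n2 = n0 := le_antisymm h h2a
      rw [this] at h2b
      linarith
  set t := ((range n2).filter (fun n => n0 ≤ n ∧ u n ≤ a)).max' hfin with ht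
  have htm := max'_mem _ hfin
  rw [← ht] at htm
  simp only [mem_filter, mem_range] at htm
  obtain ⟨ht1, ht2, ht3⟩ := htm
  have habove : ∀ n, t < n → n < n2 → a < u n := by
    intro n ha hb
    by_contra hc
    push Not at hc
    have : n ≤ t := by
      apply le_max'
      simp only [mem_filter, mem_range]
      exact ⟨hb, by omega, hc⟩
    omega
  -- n2 - t > k
  have hlen : k < n2 - t := by
    have hd := diff_bound D u hstep t (n2 - t)
    have e : t + (n2 - t) = n2 := by omega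
    rw [e] at hd
    have h3 : (k:ℤ) * D < ((n2 - t : ℕ) : ℤ) * D := by
      have := le_abs_self (u n2 - u t)
      linarith
    by_contra hc
    push Not at hc
    have : ((n2 - t : ℕ) : ℤ) ≤ k := by exact_mod_cast hc
    have := mul_le_mul_of_nonneg_right this (by positivity : (0:ℤ) ≤ D)
    linarith
  refine ⟨t+1, by omega, fun i hi => ⟨habove _ (by omega) (by omega), hmin _ (by omega) (by omega)⟩⟩

end Vale.Agent.H26.P015
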