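import Mathlib

namespace Vale.Agent.H26.P015

/-- Row A. -/
theorem rowA (N : ℕ) (hN : 2 ≤ N) :
    Real.log N ≤ 6 * Real.exp (5/2 * ∑ p ∈ (Finset.range (N+1)).filter
      (fun p => p.Prime ∧ p % 4 = 1), (1:ℝ)/p) := by
  sorry

/-- Row B. -/
theorem rowB (B : ℝ) : ∃ M : ℕ, 2 ≤ M ∧ ∀ j0 : ℕ, ∃ j, j0 ≤ j ∧
    B ≤ ∑ p ∈ (Finset.Ioc (2^(M^j) : ℕ) (2^(M^(j+1)) : ℕ)).filter
      (fun p => p.Prime ∧ p % 4 = 1), (1:ℝ)/p := by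
  sorry

/-- Row C. -/
theorem rowC (P : Finset ℕ) (hP : ∀ p ∈ P, p.Prime) (r : ℕ → ℤ) (k : ℕ)
    (F : Finset (Fin k → ℤ × ℤ)) (hk : ∀ p ∈ P, k ≤ p)
    (hF : ∀ v ∈ F, ∀ p ∈ P,
      Function.Injective (fun j => (((v j).1 + r p * (v j).2 : ℤ) : ZMod p)))
    (hlt : (F.card : ℝ) * ∏ p ∈ P, (1 - (k:ℝ)/p) < 1) :
    ∃ x : ℕ, x < ∏ p ∈ P, p ∧ ∀ v ∈ F, ∃ j, ∃ p ∈ P,
      (p:ℤ) ∣ x + (v j).1 + r p * (v j).2 := by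
  sorry

/-- Row D. -/
theorem rowD (z : GaussianInt) (hz : Prime z) (p : ℕ) (hp : p.Prime) (h4 : p % 4 = 1)
    (hd : (p:ℤ) ∣ z.norm) : z.norm = p := by
  sorry

/-- Row E. -/
theorem rowE (D k : ℕ) (u : ℕ → ℤ) (hstep : ∀ n, |u (n+1) - u n| ≤ D) (a : ℤ)
    (n0 n1 : ℕ) (h01 : n0 ≤ n1) (h0 : u n0 ≤ a) (h1 : a + k*D < u n1) :
    ∃ s, n0 < s ∧ ∀ i < k, a < u (s+i) ∧ u (s+i) ≤ a + k*D := by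
  sorry

end Vale.Agent.H26.P015
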