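import Vale.Agent.H26.P015.Paths
import Vale.Agent.H29.P015.C

namespace Vale.Agent.H26.P015

open Finset

theorem exists_root (p : ℕ) (hp : p.Prime) (h4 : p % 4 = 1) : ∃ r : ℤ, (p:ℤ) ∣ r^2 + 1 := by
  haveI := Fact.mk hp
  have h : IsSquare (-1 : ZMod p) := ZMod.exists_sq_eq_neg_one_iff.mpr (by omega)
  obtain ⟨y, hy⟩ := h
  refine ⟨(y.val : ℤ), ?_⟩
  rw [← ZMod.intCast_zmod_eq_zero_iff_dvd]
  push_cast
  rw [ZMod.natCast_zmod_val, sq, ← hy]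
  ring

/-- the Diophantine part of the slab argument -/
theorem slab_core (d k h : ℕ) (hk : 0 < k) (P : Finset ℕ)
    (hP : ∀ p ∈ P, p.Prime ∧ p % 4 = 1 ∧ k ≤ p ∧ 2 * (k*d)^2 < p)
    (hlt : ((FF k d h).card : ℝ) * ∏ p ∈ P, (1 - (k:ℝ)/p) < 1) :
    ∃ a : ℕ, (∏ p ∈ P, p) ≤ a ∧ a < 2 * ∏ p ∈ P, p ∧
      ∀ V : ℕ → ℤ × ℤ, (∀ i, |(V (i+1)).1 - (V i).1| ≤ d) → (∀ i, |(V (i+1)).2 - (V i).2| ≤ d) →
        (∀ i < k, 1 ≤ (V i).1 ∧ (V i).1 ≤ k*d) → (∀ i < k, |(V i).2| ≤ h) →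
        Function.Injective V →
        ∃ i < k, ∃ p : ℕ, p.Prime ∧ p % 4 = 1 ∧ (p:ℤ) ∣ (a + (V i).1)^2 + (V i).2^2 ∧
          (p:ℤ) < (a + (V i).1)^2 + (V i).2^2 := by
  classical
  have hroot : ∀ p : ℕ, ∃ r : ℤ, p.Prime → p % 4 = 1 → (p:ℤ) ∣ r^2 + 1 := by
    intro p
    by_cases h : p.Prime ∧ p % 4 = 1
    · obtain ⟨r, hr⟩ := exists_root p h.1 h.2
      exact ⟨r, fun _ _ => hr⟩
    · exact ⟨0, fun h1 h2 => absurd ⟨h1, h2⟩ h⟩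
  choose r hr using hroot
  obtain ⟨x, hx, hcov⟩ := Vale.Agent.H29.P015.rowC P (fun p hp => (hP p hp).1) r k (FF k d h)
    (fun p hp => (hP p hp).2.2.1)
    (fun v hv p hp => FF_residues k d h v hv p (hP p hp).1 (r p)
      (hr p (hP p hp).1 (hP p hp).2.1) (hP p hp).2.2.2) hlt
  set Q := ∏ p ∈ P, p with hQ
  refine ⟨x + Q, by omega, by omega, ?_⟩
  intro V h1 h2 hb1 hb2 hinj
  have hV := mem_FF k d h hk V h1 h2 hb1 hb2 hinj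
  obtain ⟨j, p, hp, hdvd⟩ := hcov _ hV
  obtain ⟨pp, p4, -, -⟩ := hP p hp
  refine ⟨j, j.2, p, pp, p4, ?_, ?_⟩
  · have hpQ : (p:ℤ) ∣ (Q:ℤ) := by
      exact_mod_cast (dvd_prod_of_mem (fun p => p) hp)
    have e1 : (p:ℤ) ∣ ((x + Q : ℕ):ℤ) + (V j).1 + r p * (V j).2 := by
      have := dvd_add hdvd hpQ
      have e : ((x:ℤ) + (V j).1 + r p * (V j).2) + (Q:ℤ) = ((x + Q : ℕ):ℤ) + (V j).1 + r p * (V j).2 := by
        push_cast; ring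
      rwa [e] at this
    have e2 : (((x + Q : ℕ):ℤ) + (V j).1)^2 + (V j).2^2
        = (((x + Q : ℕ):ℤ) + (V j).1 + r p * (V j).2) * (((x + Q : ℕ):ℤ) + (V j).1 - r p * (V j).2)
          + ((r p)^2 + 1) * (V j).2^2 := by ring
    rw [e2]
    exact dvd_add (e1.mul_right _) ((hr p pp p4).mul_right _)
  · have hQpos : 0 < Q := prod_pos (fun p hp => (hP p hp).1.pos)
    have hpQ : p ≤ Q := Nat.le_of_dvd hQpos (dvd_prod_of_mem (fun p => p) hp)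
    have h1' := (hb1 j j.2).1
    have hp2 := pp.two_le
    have c1 : (p:ℤ) ≤ ((x + Q : ℕ):ℤ) := by exact_mod_cast (by omega : p ≤ x + Q)
    have c2 : (p:ℤ) + 1 ≤ ((x + Q : ℕ):ℤ) + (V j).1 := by linarith
    have c3 : (2:ℤ) ≤ p := by exact_mod_cast hp2
    nlinarith [sq_nonneg (V j).2]

end Vale.Agent.H26.P015
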